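/-
S0170 team project, WP-A1 (helper74): computable monotone bounds for all derivatives of the
smooth step `stp = Real.smoothTransition`.
-/
import Mathlib
import Crest.Agent.Helper21.BoxFlow.Defs

set_option autoImplicit false
open scoped ContDiff
open Crest.Agent.Helper21 Polynomial

namespace Crest.Agent.Helper74

noncomputable section

/-- `glueF a x = x⁻¹ ^ a * expNegInvGlue x`. -/
def glueF (a : ℕ) (x : ℝ) : ℝ := x⁻¹ ^ a * expNegInvGlue x

theorem glueF_eq (a : ℕ) :
    glueF a = fun x => (X ^ a : ℝ[X]).eval x⁻¹ * expNegInvGlue x := by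
  funext x; simp [glueF]

theorem glueF_zero : glueF 0 = expNegInvGlue := by
  funext x; simp [glueF]

theorem glueF_contDiff (a : ℕ) (n : ℕ∞) : ContDiff ℝ n (glueF a) := by
  rw [glueF_eq]; exact expNegInvGlue.contDiff_polynomial_eval_inv_mul _

theorem glueF_deriv (a : ℕ) :
    deriv (glueF a) = glueF (a + 2) - (a : ℝ) • glueF (a + 1) := by
  funext x
  have h := (expNegInvGlue.hasDerivAt_polynomial_eval_inv_mul (X ^ a : ℝ[X]) x).deriv
  rw [← glueF_eq] at h
  rw [h]
  simp only [Pi.sub_apply, Pi.smul_apply, glueF, smul_eq_mul]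
  rcases a with _ | b
  · simp
  · simp
    ring

theorem glueF_abs_le (a : ℕ) (x : ℝ) : |glueF a x| ≤ (a.factorial : ℝ) := by
  rcases le_or_gt x 0 with hx | hx
  · simp [glueF, expNegInvGlue.zero_of_nonpos hx]
  · have hu : 0 ≤ x⁻¹ := (inv_pos.2 hx).le
    have h1 := Real.pow_div_factorial_le_exp (x := x⁻¹) hu a
    have hf : (0 : ℝ) < a.factorial := by exact_mod_cast a.factorial_pos
    have he : expNegInvGlue x = Real.exp (-x⁻¹) := by
      simp [expNegInvGlue, not_le.2 hx]
    rw [glueF, he, abs_of_nonneg (by positivity), Real.exp_neg]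
    rw [div_le_iff₀ hf] at h1
    rw [← div_eq_mul_inv, div_le_iff₀ (Real.exp_pos _)]
    linarith

/-- Main bound for the glue function family. -/
theorem glueF_iteratedDeriv_le (k : ℕ) : ∀ (a : ℕ) (x : ℝ),
    |iteratedDeriv k (glueF a) x| ≤ (2 ^ k * (a + 2 * k).factorial : ℕ) := by
  induction k with
  | zero => intro a x; simpa using glueF_abs_le a x
  | succ k ih =>
    intro a x
    rw [iteratedDeriv_succ', glueF_deriv]
    have hc1 : ContDiffAt ℝ k (glueF (a + 2)) x := (glueF_contDiff _ k).contDiffAt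
    have hc2 : ContDiffAt ℝ k (glueF (a + 1)) x := (glueF_contDiff _ k).contDiffAt
    have hc3 : ContDiffAt ℝ k ((a : ℝ) • glueF (a + 1)) x := hc2.const_smul (a : ℝ)
    rw [iteratedDeriv_sub hc1 hc3, iteratedDeriv_const_smul hc2]
    have h1 := ih (a + 2) x
    have h2 := ih (a + 1) x
    have h3 : |iteratedDeriv k (glueF (a + 2)) x - (a : ℝ) • iteratedDeriv k (glueF (a + 1)) x|
        ≤ |iteratedDeriv k (glueF (a + 2)) x| + (a : ℝ) * |iteratedDeriv k (glueF (a + 1)) x| := by
      refine (abs_sub _ _).trans ?_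
      rw [smul_eq_mul, abs_mul, abs_of_nonneg (Nat.cast_nonneg a : (0 : ℝ) ≤ (a : ℝ))]
    refine h3.trans ?_
    have h4 : (a : ℝ) * |iteratedDeriv k (glueF (a + 1)) x|
        ≤ (a : ℝ) * (2 ^ k * (a + 1 + 2 * k).factorial : ℕ) :=
      mul_le_mul_of_nonneg_left h2 (Nat.cast_nonneg a)
    have h5 : (2 ^ k * (a + 2 + 2 * k).factorial : ℕ) + a * (2 ^ k * (a + 1 + 2 * k).factorial : ℕ)
        ≤ (2 ^ (k + 1) * (a + 2 * (k + 1)).factorial : ℕ) := by
      have e1 : a + 2 * (k + 1) = (a + 1 + 2 * k) + 1 := by ring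
      have e2 : a + 2 + 2 * k = (a + 1 + 2 * k) + 1 := by ring
      rw [e1, e2, Nat.factorial_succ, pow_succ]
      have : a * (2 ^ k * (a + 1 + 2 * k).factorial)
          ≤ 2 ^ k * ((a + 1 + 2 * k + 1) * (a + 1 + 2 * k).factorial) := by
        have : a ≤ a + 1 + 2 * k + 1 := by omega
        nlinarith [Nat.zero_le (2 ^ k * (a + 1 + 2 * k).factorial),
          Nat.mul_le_mul_right (2 ^ k * (a + 1 + 2 * k).factorial) this]
      nlinarith
    have h5' : ((2 ^ k * (a + 2 + 2 * k).factorial : ℕ) : ℝ)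
        + (a : ℝ) * ((2 ^ k * (a + 1 + 2 * k).factorial : ℕ) : ℝ)
        ≤ ((2 ^ (k + 1) * (a + 2 * (k + 1)).factorial : ℕ) : ℝ) := by
      exact_mod_cast h5
    linarith

/-- Bound for the derivatives of `expNegInvGlue`. -/
def glueBound (k : ℕ) : ℕ := 2 ^ k * (2 * k).factorial

theorem expNegInvGlue_iteratedDeriv_le (k : ℕ) (x : ℝ) :
    |iteratedDeriv k expNegInvGlue x| ≤ (glueBound k : ℝ) := by
  have h := glueF_iteratedDeriv_le k 0 x
  rw [glueF_zero] at h
  simpa [glueBound] using h


theorem glueBound_mono : Monotone glueBound := by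
  intro k m h
  exact Nat.mul_le_mul (Nat.pow_le_pow_right (by norm_num) h) (Nat.factorial_le (by omega))

theorem glueBound_pos (k : ℕ) : 1 ≤ glueBound k :=
  Nat.succ_le_of_lt (Nat.mul_pos (by positivity) (Nat.factorial_pos _))

/-- The denominator of the smooth step. -/
def glueD (x : ℝ) : ℝ := expNegInvGlue x + expNegInvGlue (1 - x)

theorem glueD_contDiff (n : ℕ∞) : ContDiff ℝ n glueD :=
  expNegInvGlue.contDiff.add (expNegInvGlue.contDiff.comp (contDiff_const.sub contDiff_id))

theorem stp_contDiff (n : ℕ∞) : ContDiff ℝ n stp := Real.smoothTransition.contDiff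

theorem expNegInvGlue_half : (1 : ℝ) / 9 ≤ expNegInvGlue (1 / 2) := by
  have h2 : Real.exp 2 ≤ 9 := by
    have h1 := Real.exp_one_lt_three
    have h0 := Real.exp_pos 1
    have : Real.exp 2 = Real.exp 1 * Real.exp 1 := by rw [← Real.exp_add]; norm_num
    rw [this]; nlinarith
  have he : expNegInvGlue (1 / 2) = Real.exp (-2) := by
    simp [expNegInvGlue]
  rw [he, Real.exp_neg, one_div]
  exact inv_anti₀ (Real.exp_pos 2) h2

theorem glueD_ge (x : ℝ) : (1 : ℝ) / 9 ≤ glueD x := by
  rcases le_total x (1 / 2) with h | h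
  · have h1 : expNegInvGlue (1 / 2) ≤ expNegInvGlue (1 - x) :=
      expNegInvGlue.monotone (by linarith)
    have h2 := expNegInvGlue.nonneg x
    have h3 := expNegInvGlue_half
    unfold glueD; linarith
  · have h1 : expNegInvGlue (1 / 2) ≤ expNegInvGlue x := expNegInvGlue.monotone h
    have h2 := expNegInvGlue.nonneg (1 - x)
    have h3 := expNegInvGlue_half
    unfold glueD; linarith

theorem glueD_iteratedDeriv_le (k : ℕ) (x : ℝ) :
    |iteratedDeriv k glueD x| ≤ 2 * (glueBound k : ℝ) := by
  have hD : glueD = expNegInvGlue + fun z => expNegInvGlue (1 - z) := rfl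
  have hc1 : ContDiffAt ℝ k expNegInvGlue x :=
    (expNegInvGlue.contDiff (n := (k : ℕ∞))).contDiffAt
  have hc2 : ContDiffAt ℝ k (fun z => expNegInvGlue (1 - z)) x :=
    ((expNegInvGlue.contDiff (n := (k : ℕ∞))).comp (contDiff_const.sub contDiff_id)).contDiffAt
  rw [hD, iteratedDeriv_add hc1 hc2, iteratedDeriv_comp_const_sub]
  have h1 := expNegInvGlue_iteratedDeriv_le k x
  have h2 := expNegInvGlue_iteratedDeriv_le k (1 - x)
  have h3 : |(-1 : ℝ) ^ k • iteratedDeriv k expNegInvGlue (1 - x)|
      = |iteratedDeriv k expNegInvGlue (1 - x)| := by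
    rw [smul_eq_mul, abs_mul, abs_pow, abs_neg, abs_one, one_pow, one_mul]
  calc |iteratedDeriv k expNegInvGlue x + (-1 : ℝ) ^ k • iteratedDeriv k expNegInvGlue (1 - x)|
      ≤ |iteratedDeriv k expNegInvGlue x|
        + |(-1 : ℝ) ^ k • iteratedDeriv k expNegInvGlue (1 - x)| := abs_add_le _ _
    _ ≤ 2 * (glueBound k : ℝ) := by rw [h3]; linarith

theorem stp_mul_glueD : stp * glueD = expNegInvGlue := by
  funext x
  have h : glueD x ≠ 0 := by have := glueD_ge x; intro h0; rw [h0] at this; norm_num at this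
  show Real.smoothTransition x * glueD x = expNegInvGlue x
  unfold Real.smoothTransition
  exact div_mul_cancel₀ _ h

/-- The bound for the derivatives of the smooth step. -/
def stpBound : ℕ → ℕ
  | 0 => 1
  | k + 1 => 9 * (glueBound (k + 1) + 2 ^ (k + 1) * stpBound k * (2 * glueBound (k + 1)))

theorem stpBound_le_succ (k : ℕ) : stpBound k ≤ stpBound (k + 1) := by
  have h1 := glueBound_pos (k + 1)
  have h2 : 1 ≤ 2 ^ (k + 1) := Nat.one_le_two_pow
  show stpBound k ≤ 9 * (glueBound (k + 1) + 2 ^ (k + 1) * stpBound k * (2 * glueBound (k + 1)))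
  have h3 : stpBound k ≤ 2 ^ (k + 1) * stpBound k := Nat.le_mul_of_pos_left _ (by positivity)
  have h4 : 2 ^ (k + 1) * stpBound k ≤ 2 ^ (k + 1) * stpBound k * (2 * glueBound (k + 1)) :=
    Nat.le_mul_of_pos_right _ (by omega)
  omega

theorem stpBound_mono : Monotone stpBound := monotone_nat_of_le_succ stpBound_le_succ

theorem stp_iteratedDeriv_le (k : ℕ) : ∀ i ≤ k, ∀ x : ℝ,
    |iteratedDeriv i stp x| ≤ (stpBound k : ℝ) := by
  induction k with
  | zero =>
    intro i hi x
    obtain rfl : i = 0 := by omega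
    simp only [iteratedDeriv_zero, stpBound, Nat.cast_one]
    have h0 : 0 ≤ stp x := Real.smoothTransition.nonneg x
    have h1 : stp x ≤ 1 := Real.smoothTransition.le_one x
    rw [abs_le]
    exact ⟨by linarith, h1⟩
  | succ k ih =>
    intro i hi x
    rcases Nat.lt_or_ge i (k + 1) with hlt | hge
    · refine (ih i (by omega) x).trans ?_
      exact_mod_cast stpBound_le_succ k
    · obtain rfl : i = k + 1 := by omega
      have hcs : ContDiffAt ℝ (k + 1 : ℕ) stp x := (stp_contDiff (k + 1 : ℕ)).contDiffAt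
      have hcd : ContDiffAt ℝ (k + 1 : ℕ) glueD x := (glueD_contDiff (k + 1 : ℕ)).contDiffAt
      have hL := iteratedDeriv_mul hcs hcd
      rw [stp_mul_glueD, Finset.sum_range_succ] at hL
      simp only [Nat.choose_self, Nat.cast_one, one_mul, Nat.sub_self, iteratedDeriv_zero] at hL
      have hg := expNegInvGlue_iteratedDeriv_le (k + 1) x
      have hD := glueD_ge x
      set T : ℝ := ∑ i ∈ Finset.range (k + 1),
        ((k + 1).choose i : ℝ) * iteratedDeriv i stp x * iteratedDeriv (k + 1 - i) glueD x with hT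
      have hTb : |T| ≤ (2 ^ (k + 1) * stpBound k * (2 * glueBound (k + 1)) : ℕ) := by
        have h1 : ∀ i ∈ Finset.range (k + 1),
            |((k + 1).choose i : ℝ) * iteratedDeriv i stp x * iteratedDeriv (k + 1 - i) glueD x|
            ≤ ((k + 1).choose i : ℝ) * ((stpBound k : ℝ) * (2 * (glueBound (k + 1) : ℝ))) := by
          intro i hi
          have hi' : i ≤ k := by simpa [Nat.lt_succ_iff] using hi
          rw [abs_mul, abs_mul, abs_of_nonneg (Nat.cast_nonneg _ : (0 : ℝ) ≤ ((k + 1).choose i : ℝ)),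
            mul_assoc]
          refine mul_le_mul_of_nonneg_left ?_ (Nat.cast_nonneg _)
          have ha := ih i hi' x
          have hb := glueD_iteratedDeriv_le (k + 1 - i) x
          have hc : (glueBound (k + 1 - i) : ℝ) ≤ (glueBound (k + 1) : ℝ) := by
            exact_mod_cast glueBound_mono (Nat.sub_le _ _)
          exact mul_le_mul ha (hb.trans (by linarith)) (abs_nonneg _) (Nat.cast_nonneg _)
        have h2 : |T| ≤ ∑ i ∈ Finset.range (k + 1),
            ((k + 1).choose i : ℝ) * ((stpBound k : ℝ) * (2 * (glueBound (k + 1) : ℝ))) :=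
          (Finset.abs_sum_le_sum_abs _ _).trans (Finset.sum_le_sum h1)
        rw [← Finset.sum_mul] at h2
        have h3 : (∑ i ∈ Finset.range (k + 1), ((k + 1).choose i : ℝ)) ≤ (2 : ℝ) ^ (k + 1) := by
          have h4 := Nat.sum_range_choose (k + 1)
          rw [Finset.sum_range_succ] at h4
          have h5 : (∑ i ∈ Finset.range (k + 1), (k + 1).choose i) ≤ 2 ^ (k + 1) := by omega
          exact_mod_cast h5
        have h6 : (0 : ℝ) ≤ (stpBound k : ℝ) * (2 * (glueBound (k + 1) : ℝ)) := by positivity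
        refine h2.trans ?_
        push_cast
        nlinarith [mul_le_mul_of_nonneg_right h3 h6]
      have hmain : iteratedDeriv (k + 1) stp x * glueD x
          = iteratedDeriv (k + 1) expNegInvGlue x - T := by linarith
      have hpos : 0 < glueD x := by linarith
      have habs : |iteratedDeriv (k + 1) stp x| * glueD x
          ≤ (glueBound (k + 1) : ℝ) + (2 ^ (k + 1) * stpBound k * (2 * glueBound (k + 1)) : ℕ) := by
        rw [← abs_of_pos hpos, ← abs_mul, hmain]
        exact (abs_sub _ _).trans (add_le_add hg hTb)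
      have hfin : |iteratedDeriv (k + 1) stp x| ≤ 9 * (|iteratedDeriv (k + 1) stp x| * glueD x) := by
        have := abs_nonneg (iteratedDeriv (k + 1) stp x)
        nlinarith
      show |iteratedDeriv (k + 1) stp x|
        ≤ ((9 * (glueBound (k + 1) + 2 ^ (k + 1) * stpBound k * (2 * glueBound (k + 1))) : ℕ) : ℝ)
      push_cast at habs ⊢
      linarith


/-! ### Computability of the bound -/

theorem primrec_two_pow : Primrec (fun k : ℕ => 2 ^ k) :=
  (Primrec₂.unpaired'.1 Nat.Primrec.pow).comp (Primrec.const 2) Primrec.id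

theorem primrec_factorial : Primrec Nat.factorial := by
  have hstep : Primrec₂ (fun (k f : ℕ) => (k + 1) * f) :=
    Primrec.nat_mul.comp (Primrec.succ.comp Primrec.fst) Primrec.snd
  refine (Primrec.nat_rec₁ 1 hstep).of_eq fun k => ?_
  induction k with
  | zero => rfl
  | succ k ih => simp only [ih, Nat.factorial_succ]

theorem primrec_glueBound : Primrec glueBound :=
  Primrec.nat_mul.comp primrec_two_pow (primrec_factorial.comp Primrec.nat_double)

theorem primrec_stpBound : Primrec stpBound := by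
  have hG : Primrec (fun p : ℕ × ℕ => glueBound (p.1 + 1)) :=
    primrec_glueBound.comp (Primrec.succ.comp Primrec.fst)
  have hP : Primrec (fun p : ℕ × ℕ => 2 ^ (p.1 + 1)) :=
    primrec_two_pow.comp (Primrec.succ.comp Primrec.fst)
  have hstep : Primrec₂ (fun (k s : ℕ) =>
      9 * (glueBound (k + 1) + 2 ^ (k + 1) * s * (2 * glueBound (k + 1)))) :=
    Primrec.nat_mul.comp (Primrec.const 9)
      (Primrec.nat_add.comp hG
        (Primrec.nat_mul.comp (Primrec.nat_mul.comp hP Primrec.snd)
          (Primrec.nat_mul.comp (Primrec.const 2) hG)))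
  refine (Primrec.nat_rec₁ 1 hstep).of_eq fun k => ?_
  induction k with
  | zero => rfl
  | succ k ih => simp only [ih, stpBound]

/-- **WP-A1**: computable monotone bounds for all derivatives of the smooth step. -/
theorem stp_iteratedDeriv_bound : ∃ B : ℕ → ℕ, Computable B ∧ Monotone B ∧
    ∀ (k : ℕ) (x : ℝ), |iteratedDeriv k stp x| ≤ (B k : ℝ) :=
  ⟨stpBound, primrec_stpBound.to_comp, stpBound_mono,
    fun k x => stp_iteratedDeriv_le k k le_rfl x⟩

end

end Crest.Agent.Helper74
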